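import Mathlib

/-! # P281: algebraically independent polynomials have affinely independent exponents -/

namespace Vale.Agent.P281.ToricBundles

open MvPolynomial Module

namespace AffIndAux

/-- Coordinates which are injective on a subspace. -/
theorem exists_J {n : ℕ} : ∀ (d : ℕ) (W : Submodule ℚ (Fin n → ℚ)), finrank ℚ W ≤ d →
    ∃ J : Finset (Fin n), J.card ≤ d ∧ ∀ w ∈ W, (∀ j ∈ J, w j = 0) → w = 0 := by
  classical
  intro d
  induction d with
  | zero =>
    intro W hW
    refine ⟨∅, by simp, fun w hw _ => ?_⟩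
    have h1 : W = ⊥ := Submodule.finrank_eq_zero.1 (Nat.le_zero.1 hW)
    rw [h1] at hw
    simpa using hw
  | succ d ih =>
    intro W hW
    by_cases h0 : ∀ w ∈ W, w = 0
    · exact ⟨∅, by simp, fun w hw _ => h0 w hw⟩
    · push Not at h0
      obtain ⟨w, hw, hw0⟩ := h0
      obtain ⟨i, hi⟩ := Function.ne_iff.1 hw0
      have hlt : W ⊓ LinearMap.ker (LinearMap.proj i : (Fin n → ℚ) →ₗ[ℚ] ℚ) < W := by
        refine lt_of_le_of_ne inf_le_left fun he => hi ?_
        have : w ∈ W ⊓ LinearMap.ker (LinearMap.proj i : (Fin n → ℚ) →ₗ[ℚ] ℚ) := by rw [he]; exact hw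
        simpa using this.2
      have h1 := Submodule.finrank_lt_finrank_of_lt hlt
      obtain ⟨J, hJ, hJw⟩ := ih _ (by omega :
        finrank ℚ (W ⊓ LinearMap.ker (LinearMap.proj i : (Fin n → ℚ) →ₗ[ℚ] ℚ) : Submodule ℚ _) ≤ d)
      refine ⟨insert i J, (Finset.card_insert_le _ _).trans (by omega), fun v hv hv0 => ?_⟩
      refine hJw v ⟨hv, ?_⟩ fun j hj => hv0 j (Finset.mem_insert_of_mem hj)
      simpa using hv0 i (Finset.mem_insert_self _ _)

variable {n : ℕ}

/-- The condition on the exponents of a product of `N` polynomials. -/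
def InS (x0 : Fin n →₀ ℕ) (W : Submodule ℚ (Fin n → ℚ)) (M N : ℕ) (s : Fin n →₀ ℕ) : Prop :=
  (∀ j, s j ≤ N * M) ∧ (fun j => (s j : ℚ) - N * (x0 j : ℚ)) ∈ W

theorem InS.add {x0 : Fin n →₀ ℕ} {W : Submodule ℚ (Fin n → ℚ)} {M N N' : ℕ}
    {s s' : Fin n →₀ ℕ} (h : InS x0 W M N s) (h' : InS x0 W M N' s') :
    InS x0 W M (N + N') (s + s') := by
  refine ⟨fun j => ?_, ?_⟩
  · rw [Finsupp.add_apply, add_mul]
    exact add_le_add (h.1 j) (h'.1 j)
  · have h1 := W.add_mem h.2 h'.2
    convert h1 using 1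
    ext j
    simp only [Finsupp.add_apply, Pi.add_apply]
    push_cast
    ring

def Good (x0 : Fin n →₀ ℕ) (W : Submodule ℚ (Fin n → ℚ)) (M N : ℕ)
    (f : MvPolynomial (Fin n) ℂ) : Prop := ∀ s ∈ f.support, InS x0 W M N s

theorem Good.mul {x0 : Fin n →₀ ℕ} {W : Submodule ℚ (Fin n → ℚ)} {M N N' : ℕ}
    {f g : MvPolynomial (Fin n) ℂ} (h : Good x0 W M N f) (h' : Good x0 W M N' g) :
    Good x0 W M (N + N') (f * g) := by
  classical
  intro s hs
  obtain ⟨a, ha, b, hb, rfl⟩ := Finset.mem_add.1 (support_mul f g hs)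
  exact (h a ha).add (h' b hb)

theorem Good.one {x0 : Fin n →₀ ℕ} {W : Submodule ℚ (Fin n → ℚ)} {M : ℕ} :
    Good x0 W M 0 (1 : MvPolynomial (Fin n) ℂ) := by
  classical
  intro s hs
  have hs0 : s = 0 := by
    by_contra hne
    rw [MvPolynomial.mem_support_iff, coeff_one, if_neg (Ne.symm hne)] at hs
    exact hs rfl
  subst hs0
  refine ⟨fun j => by simp, ?_⟩
  have : (fun j => (((0 : Fin n →₀ ℕ) j : ℕ) : ℚ) - ((0 : ℕ) : ℚ) * (x0 j : ℚ)) = 0 := by
    ext j; simp
  rw [this]
  exact W.zero_mem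

theorem Good.pow {x0 : Fin n →₀ ℕ} {W : Submodule ℚ (Fin n → ℚ)} {M N : ℕ}
    {f : MvPolynomial (Fin n) ℂ} (h : Good x0 W M N f) (k : ℕ) :
    Good x0 W M (k * N) (f ^ k) := by
  induction k with
  | zero => simpa using Good.one
  | succ k ih =>
    rw [pow_succ, add_mul, one_mul]
    exact ih.mul h

theorem Good.prod {x0 : Fin n →₀ ℕ} {W : Submodule ℚ (Fin n → ℚ)} {M : ℕ} {ι : Type*}
    (s : Finset ι) (N : ι → ℕ) (f : ι → MvPolynomial (Fin n) ℂ)
    (h : ∀ i ∈ s, Good x0 W M (N i) (f i)) : Good x0 W M (∑ i ∈ s, N i) (∏ i ∈ s, f i) := by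
  classical
  induction s using Finset.induction_on with
  | empty => simpa using Good.one
  | insert a s ha ih =>
    rw [Finset.sum_insert ha, Finset.prod_insert ha]
    exact (h a (Finset.mem_insert_self _ _)).mul
      (ih fun i hi => h i (Finset.mem_insert_of_mem hi))

/-- The exponents of degree `a * K`. -/
noncomputable def ex {a K : ℕ} (m : Fin a → Fin (K + 1)) : Fin (a + 1) →₀ ℕ :=
  Finsupp.equivFunOnFinite.symm (Fin.cons (a * K - ∑ i, (m i : ℕ)) fun i => (m i : ℕ))

theorem ex_sum {a K : ℕ} (m : Fin a → Fin (K + 1)) : ∑ c, ex m c = a * K := by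
  rw [Fin.sum_univ_succ]
  have h1 : ∑ i : Fin a, ((m i : ℕ)) ≤ a * K := by
    calc ∑ i : Fin a, ((m i : ℕ)) ≤ ∑ _i : Fin a, K :=
          Finset.sum_le_sum fun i _ => Nat.lt_succ_iff.1 (m i).2
      _ = a * K := by simp
  simp only [ex, Finsupp.equivFunOnFinite_symm_apply_apply, Fin.cons_zero, Fin.cons_succ]
  omega

theorem ex_inj {a K : ℕ} : Function.Injective (ex (a := a) (K := K)) := by
  intro m m' h
  ext i
  have h1 := DFunLike.congr_fun h (Fin.succ i)
  simpa [ex] using h1

end AffIndAux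

open AffIndAux in
theorem exists_affineIndependent {n a : ℕ} (A : Finset (Fin n →₀ ℕ))
    (p : Fin (a + 1) → MvPolynomial (Fin n) ℂ) (hp : ∀ c, (p c).support ⊆ A)
    (hind : ∀ (e : ℕ) (P : MvPolynomial (Fin (a + 1)) ℂ), P.IsHomogeneous e →
      MvPolynomial.aeval p P = 0 → P = 0) :
    ∃ χ : Fin (a + 1) → Fin n →₀ ℕ, (∀ c, χ c ∈ A) ∧
      AffineIndependent ℚ (fun c => fun l => (χ c l : ℚ)) := by
  classical
  have hp0 : p 0 ≠ 0 := by
    intro h
    have h1 := hind 1 (X 0) (isHomogeneous_X _ _) (by rw [aeval_X, h])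
    exact X_ne_zero _ h1
  obtain ⟨x0, hx0⟩ : ∃ x, x ∈ (p 0).support := by
    by_contra hne
    push Not at hne
    refine hp0 (MvPolynomial.support_eq_empty.1 (Finset.eq_empty_of_forall_notMem hne))
  have hx0A : x0 ∈ A := hp 0 hx0
  set e : (Fin n →₀ ℕ) → (Fin n → ℚ) := fun χ l => (χ l : ℚ) with he
  set S : Set (Fin n → ℚ) := e '' (A : Set (Fin n →₀ ℕ)) with hS
  set W : Submodule ℚ (Fin n → ℚ) := vectorSpan ℚ S with hWdef
  obtain ⟨M, hM⟩ : ∃ M, ∀ χ ∈ A, ∀ j, χ j ≤ M := by
    refine ⟨A.sup fun χ => Finset.univ.sup fun j => χ j, fun χ hχ j => ?_⟩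
    exact (Finset.le_sup (f := fun j => χ j) (Finset.mem_univ j)).trans
      (Finset.le_sup (f := fun χ : Fin n →₀ ℕ => Finset.univ.sup fun j => χ j) hχ)
  have hpg : ∀ c, Good x0 W M 1 (p c) := by
    intro c s hs
    have hsA : s ∈ A := hp c hs
    refine ⟨fun j => by simpa using hM s hsA j, ?_⟩
    have h1 : (fun j => (s j : ℚ) - ((1 : ℕ) : ℚ) * (x0 j : ℚ)) = e s -ᵥ e x0 := by
      ext j
      simp [he]
    rw [h1]
    exact vsub_mem_vectorSpan ℚ ⟨s, hsA, rfl⟩ ⟨x0, hx0A, rfl⟩
  have hW : a ≤ finrank ℚ W := by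
    by_contra hlt
    push Not at hlt
    have ha : 1 ≤ a := by omega
    obtain ⟨J, hJ, hJW⟩ := exists_J (a - 1) W (by omega)
    set K := (a * M + 1) ^ (a - 1) with hK
    let SN : Set (Fin n →₀ ℕ) := {s | InS x0 W M (a * K) s}
    let F : SN → (J → Fin (a * K * M + 1)) := fun s j => ⟨s.1 j, Nat.lt_succ_of_le (s.2.1 j)⟩
    have hF : Function.Injective F := by
      rintro ⟨s, hs⟩ ⟨s', hs'⟩ h
      have h1 : (fun j => (s j : ℚ) - (s' j : ℚ)) ∈ W := by
        have h2 := W.sub_mem hs.2 hs'.2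
        convert h2 using 1
        ext j
        simp
      have h3 := hJW _ h1 fun j hj => by
        have h4 := congrArg Fin.val (congrFun h ⟨j, hj⟩)
        have h5 : s j = s' j := h4
        simp [h5]
      ext j
      have h6 := congrFun h3 j
      simp only [Pi.zero_apply, sub_eq_zero] at h6
      exact_mod_cast h6
    have hfin : Finite SN := Finite.of_injective F hF
    have hft : Fintype SN := Fintype.ofFinite SN
    have hcard : Fintype.card SN ≤ (a * K * M + 1) ^ J.card := by
      calc Fintype.card SN ≤ Fintype.card (J → Fin (a * K * M + 1)) :=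
            Fintype.card_le_of_injective F hF
        _ = (a * K * M + 1) ^ J.card := by simp
    have hmem : ∀ m : Fin a → Fin (K + 1), (∏ c, p c ^ (ex m c)) ∈ restrictSupport ℂ SN := by
      intro m
      rw [mem_restrictSupport_iff]
      have h1 := Good.prod Finset.univ (fun c => ex m c * 1) (fun c => p c ^ (ex m c))
        fun c _ => (hpg c).pow (ex m c)
      simp only [mul_one] at h1
      rw [ex_sum] at h1
      exact h1
    have hli : LinearIndependent ℂ (fun m : Fin a → Fin (K + 1) =>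
        (⟨∏ c, p c ^ (ex m c), hmem m⟩ : restrictSupport ℂ SN)) := by
      refine LinearIndependent.of_comp (restrictSupport ℂ SN).subtype ?_
      rw [Fintype.linearIndependent_iff]
      intro g hg m
      have hP : (∑ m : Fin a → Fin (K + 1), monomial (ex m) (g m)) = 0 := by
        refine hind (a * K) _ ?_ ?_
        · refine IsHomogeneous.sum _ _ _ fun m _ => isHomogeneous_monomial _ ?_
          rw [← ex_sum m, Finsupp.degree_eq_sum]
        · rw [map_sum]
          rw [← hg]
          refine Finset.sum_congr rfl fun m _ => ?_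
          rw [aeval_monomial, Algebra.smul_def]
          congr 1
          rw [Finsupp.prod_fintype _ _ fun i => pow_zero _]
          rfl
      have h1 := congrArg (coeff (ex m)) hP
      rw [coeff_sum, Finset.sum_eq_single m] at h1
      · simpa using h1
      · intro m' _ hne
        rw [coeff_monomial, if_neg fun h => hne (ex_inj h)]
      · intro h
        exact absurd (Finset.mem_univ m) h
    have hmf : Module.Finite ℂ (restrictSupport ℂ SN) :=
      Module.Finite.of_basis (basisRestrictSupport ℂ SN)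
    have hle := hli.fintype_card_le_finrank
    rw [Module.finrank_eq_card_basis (basisRestrictSupport ℂ SN), Fintype.card_pi] at hle
    simp only [Fintype.card_fin, Finset.prod_const, Finset.card_univ] at hle
    have h1 : (K + 1) ^ a ≤ (a * K * M + 1) ^ (a - 1) :=
      hle.trans (hcard.trans (Nat.pow_le_pow_right (by omega) hJ))
    have h2 : (a * K * M + 1) ^ (a - 1) ≤ (K + 1) ^ (a - 1) * K := by
      rw [hK, ← mul_pow, ← hK]
      refine Nat.pow_le_pow_left ?_ _
      nlinarith [Nat.zero_le (K * M * a), Nat.zero_le (a * M), Nat.zero_le K]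
    have h3 : (K + 1) ^ a = (K + 1) ^ (a - 1) * (K + 1) := by
      rw [← pow_succ]
      congr 1
      omega
    have h4 : 0 < (K + 1) ^ (a - 1) := by positivity
    have h5 : (K + 1) ^ (a - 1) * (K + 1) ≤ (K + 1) ^ (a - 1) * K := h3 ▸ h1.trans h2
    have h6 := Nat.le_of_mul_le_mul_left h5 h4
    omega
  obtain ⟨t, htS, hspan, hti⟩ := _root_.exists_affineIndependent ℚ (Fin n → ℚ) S
  have htfin : t.Finite := (A.finite_toSet.image e).subset htS
  have hft : Fintype t := htfin.fintype
  have hne : Nonempty t := by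
    by_contra h
    rw [not_nonempty_iff, Set.isEmpty_coe_sort] at h
    rw [h, AffineSubspace.span_empty, eq_comm, affineSpan_eq_bot] at hspan
    exact (Set.eq_empty_iff_forall_notMem.1 hspan) (e x0) ⟨x0, hx0A, rfl⟩
  have hcard : a + 1 ≤ Fintype.card t := by
    rw [← hti.finrank_vectorSpan_add_one, Subtype.range_coe]
    have h1 : vectorSpan ℚ t = W := by
      rw [hWdef, ← direction_affineSpan, ← direction_affineSpan, hspan]
    rw [h1]
    omega
  obtain ⟨emb⟩ : Nonempty (Fin (a + 1) ↪ t) :=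
    Function.Embedding.nonempty_of_card_le (by simpa using hcard)
  have hch : ∀ c, ∃ χ ∈ A, e χ = (emb c : Fin n → ℚ) := fun c => htS (emb c).2
  choose χ hχA hχ using hch
  refine ⟨χ, hχA, ?_⟩
  have h1 := hti.comp_embedding emb
  have h2 : (fun c => fun l => (χ c l : ℚ)) = (fun c => ((emb c : t) : Fin n → ℚ)) := by
    ext c l
    exact congrFun (hχ c) l
  rw [h2]
  exact h1

end Vale.Agent.P281.ToricBundles
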